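import Vale.Agent.P032W.H820.Dx

/-!
# P032: crossing rules for exact rays, tangent rays included

`OutR p w y` / `InR p w y` : the points `p + r w`, `r > 0` small, are at distance `> 1` / `< 1` from `y`.
A ray orthogonal to `p - y` at unit distance is an `OutR` ray.  The rules R1, R2 of `H820/Dx` hold
with these hypotheses only; no sectors, no curvature zones.
-/

open Set Filter Topology Metric

noncomputable section

namespace Vale.Agent.P032.Six

variable {k : ℕ} {U : Fin k → Set ℂ} {T : ℂ → Set (Fin k)}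

/-- the ray leaves the closed unit disc about `y` -/
def OutR (p w y : ℂ) : Prop := ∀ᶠ r : ℝ in 𝓝[>] 0, 1 < dist (p + r * w) y

/-- the ray enters the open unit disc about `y` -/
def InR (p w y : ℂ) : Prop := ∀ᶠ r : ℝ in 𝓝[>] 0, dist (p + r * w) y < 1

theorem OutR.of_pos {p w y : ℂ} (hpy : dist p y = 1) (h : 0 < ip w (p - y)) : OutR p w y := by
  filter_upwards [line_side (w := w) hpy h.ne'] with r hr
  by_contra hcon
  push Not at hcon
  nlinarith

theorem InR.of_neg {p w y : ℂ} (hpy : dist p y = 1) (h : ip w (p - y) < 0) : InR p w y := by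
  filter_upwards [line_side (w := w) hpy h.ne] with r hr
  by_contra hcon
  push Not at hcon
  nlinarith

theorem ip_self_pos {w : ℂ} (hw : w ≠ 0) : 0 < ip w w := by
  have h1 : ip w w = Complex.normSq w := by unfold ip; rw [Complex.normSq_apply]
  rw [h1]
  exact Complex.normSq_pos.2 hw

theorem OutR.of_orth {p w y : ℂ} (hpy : dist p y = 1) (h : ip w (p - y) = 0) (hw : w ≠ 0) :
    OutR p w y := by
  have hA2 : ip w (y - p) = 0 := by
    have : ip w (y - p) = -ip w (p - y) := by unfold ip; simp; ring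
    rw [this, h, neg_zero]
  filter_upwards [self_mem_nhdsWithin] with r hr
  have hr0 : (0 : ℝ) < r := hr
  have h3 := sq_line p w y r
  rw [hpy, hA2] at h3
  have h4 := dist_nonneg (x := p + r * w) (y := y)
  have h5 := mul_pos (pow_pos hr0 2) (ip_self_pos hw)
  nlinarith

theorem OutR.of_nonneg {p w y : ℂ} (hpy : dist p y = 1) (h : 0 ≤ ip w (p - y)) (hw : w ≠ 0) :
    OutR p w y := by
  rcases h.lt_or_eq with h1 | h1
  · exact OutR.of_pos hpy h1
  · exact OutR.of_orth hpy h1.symm hw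

/-- **R1**, general form -/
theorem Irr.dx_ray (h : Irr U T) {p y w w' : ℂ} {c : Fin k}
    (hs : (OutR p w y ∧ InR y w' p) ∨ (InR p w y ∧ OutR y w' p)) (hd : Dx T y w' c) :
    ∃ c', c' ≠ c ∧ Dx T p w c' := by
  apply exists_dx_of
  rw [freq_gt_iff]
  intro ε hε
  -- one point of the ray at `p`
  obtain ⟨ε1, hε1, h1⟩ : ∃ ε1 > 0, ∀ r : ℝ, 0 < r → r < ε1 →
      ((1 < dist (p + r * w) y ∧ InR y w' p) ∨ (dist (p + r * w) y < 1 ∧ OutR y w' p)) := by
    rcases hs with ⟨a, b⟩ | ⟨a, b⟩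
    · obtain ⟨e, he, h2⟩ := ev_gt_iff.1 a
      exact ⟨e, he, fun r hr1 hr2 => Or.inl ⟨h2 r hr1 hr2, b⟩⟩
    · obtain ⟨e, he, h2⟩ := ev_gt_iff.1 a
      exact ⟨e, he, fun r hr1 hr2 => Or.inr ⟨h2 r hr1 hr2, b⟩⟩
  set ρ2 := min ε ε1 / 2 with hρ2
  have hρ0 : 0 < ρ2 := by have := lt_min hε hε1; linarith
  have hρε : ρ2 < ε := by have := min_le_left ε ε1; have := lt_min hε hε1; linarith
  have hρε1 : ρ2 < ε1 := by have := min_le_right ε ε1; have := lt_min hε hε1; linarith
  have h2 := h1 ρ2 hρ0 hρε1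
  have hc : Tendsto (fun r : ℝ => dist (p + ρ2 * w) (y + r * w')) (𝓝[>] 0)
      (𝓝 (dist (p + ρ2 * w) y)) := tendsto_const_nhds.dist (tendsto_line y w')
  obtain ⟨r, hcr, h5⟩ : ∃ r : ℝ, c ∈ T (y + r * w') ∧
      ((1 < dist (p + ρ2 * w) (y + r * w') ∧ dist p (y + r * w') < 1) ∨
        (dist (p + ρ2 * w) (y + r * w') < 1 ∧ 1 < dist p (y + r * w'))) := by
    rcases h2 with ⟨a, b⟩ | ⟨a, b⟩
    · obtain ⟨r, h6, h7, h8⟩ := (hd.and_eventually ((hc.eventually (Ioi_mem_nhds a)).and b)).exists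
      exact ⟨r, h6, Or.inl ⟨h7, by rw [dist_comm]; exact h8⟩⟩
    · obtain ⟨r, h6, h7, h8⟩ := (hd.and_eventually ((hc.eventually (Iio_mem_nhds a)).and b)).exists
      exact ⟨r, h6, Or.inr ⟨h7, by rw [dist_comm]; exact h8⟩⟩
  have hcont : ContinuousOn (fun ρ : ℝ => dist (p + ρ * w) (y + r * w')) (uIcc 0 ρ2) := by fun_prop
  have hmem : (1 : ℝ) ∈ uIcc (dist (p + ((0 : ℝ) : ℂ) * w) (y + r * w'))
      (dist (p + ρ2 * w) (y + r * w')) := by
    rw [Complex.ofReal_zero, zero_mul, add_zero]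
    rcases h5 with ⟨a, b⟩ | ⟨a, b⟩
    · rw [uIcc_of_le (by linarith)]
      exact ⟨b.le, a.le⟩
    · rw [uIcc_of_ge (by linarith)]
      exact ⟨a.le, b.le⟩
  obtain ⟨ρ, hρ, hρ1⟩ := intermediate_value_uIcc hcont hmem
  rw [uIcc_of_le hρ0.le] at hρ
  have hρpos : 0 < ρ := by
    rcases hρ.1.lt_or_eq with h6 | h6
    · exact h6
    · exfalso
      rw [← h6] at hρ1
      simp only [Complex.ofReal_zero, zero_mul, add_zero] at hρ1
      rcases h5 with ⟨_, b⟩ | ⟨_, b⟩ <;> linarith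
  refine ⟨ρ, hρpos, lt_of_le_of_lt hρ.2 hρε, ?_⟩
  by_contra hcon
  push Not at hcon
  have hTp : T (p + ρ * w) ⊆ {c} := fun m hm => by
    by_contra hmc
    exact hcon m hmc hm
  have hU : p + ρ * w ∈ U c := h.mem_of_single hTp
  exact h.mx.free c _ hU _ (h.sub _ hcr) hρ1

/-- **R1**, parallel rays -/
theorem Irr.dx_par (h : Irr U T) {p y w : ℂ} {c : Fin k} (hpy : dist p y = 1)
    (hd : Dx T y w c) : ∃ c', c' ≠ c ∧ Dx T p w c' := by
  apply exists_dx_of
  refine hd.mono fun r hr => ?_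
  by_contra hcon
  push Not at hcon
  have hTp : T (p + r * w) ⊆ {c} := fun m hm => by
    by_contra hmc
    exact hcon m hmc hm
  have hU : p + r * w ∈ U c := h.mem_of_single hTp
  refine h.mx.free c _ hU _ (h.sub _ hr) ?_
  rw [← hpy, dist_eq_norm, dist_eq_norm]
  congr 1; ring

/-- the half arc leaves the closed unit disc about `y` -/
def OutA (z v : ℂ) (s : ℝ) (y : ℂ) : Prop :=
  ∀ᶠ δ : ℝ in 𝓝[>] 0, 1 < dist (z + (v - z) * cis (s * δ)) y

/-- the half arc enters the open unit disc about `y` -/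
def InA (z v : ℂ) (s : ℝ) (y : ℂ) : Prop :=
  ∀ᶠ δ : ℝ in 𝓝[>] 0, dist (z + (v - z) * cis (s * δ)) y < 1

theorem OutA.of_pos {z v y : ℂ} {s : ℝ} (hvy : dist v y = 1)
    (h : 0 < ip (s * (Complex.I * (v - z))) (v - y)) : OutA z v s y := by
  filter_upwards [arc_side (s := s) hvy h.ne'] with r hr
  by_contra hcon
  push Not at hcon
  nlinarith

theorem InA.of_neg {z v y : ℂ} {s : ℝ} (hvy : dist v y = 1)
    (h : ip (s * (Complex.I * (v - z))) (v - y) < 0) : InA z v s y := by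
  filter_upwards [arc_side (s := s) hvy h.ne] with r hr
  by_contra hcon
  push Not at hcon
  nlinarith

/-- the circle about `2 v - z` touches `S(z)` at `v` from outside -/
theorem OutA.of_two {z v : ℂ} {s : ℝ} (hvz : dist v z = 1) (hs : s = 1 ∨ s = -1) :
    OutA z v s (2 * v - z) := by
  rw [OutA, ev_gt_iff]
  refine ⟨1, one_pos, fun δ h1 h2 => ?_⟩
  have hn : ‖v - z‖ = 1 := by rw [← dist_eq_norm]; exact hvz
  have e1 : z + (v - z) * cis (s * δ) - (2 * v - z) = (v - z) * (cis (s * δ) - 2) := by ring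
  rw [dist_eq_norm, e1, norm_mul, hn, one_mul]
  have hcos : Real.cos (s * δ) = Real.cos δ := by
    rcases hs with h | h <;> rw [h]
    · rw [one_mul]
    · rw [neg_mul, one_mul, Real.cos_neg]
  have hlt : Real.cos δ < 1 := by
    have h3 := Real.cos_lt_cos_of_nonneg_of_le_pi_div_two (x := 0) (y := δ) le_rfl
      (by have := Real.pi_gt_three; linarith) h1
    rwa [Real.cos_zero] at h3
  have h4 : ‖cis (s * δ) - 2‖ ^ 2 = 5 - 4 * Real.cos δ := by
    rw [← Complex.normSq_eq_norm_sq, Complex.normSq_apply]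
    simp only [Complex.sub_re, Complex.sub_im, cis_re, cis_im]
    have h5 := Real.sin_sq_add_cos_sq (s * δ)
    rw [← hcos]
    norm_num
    nlinarith
  have h6 := norm_nonneg (cis (s * δ) - 2)
  nlinarith

/-- **R2**, general form -/
theorem Mx.ray_arc (h : Mx U) {z v y w' : ℂ} {s : ℝ} {i : Fin k}
    (hs : (OutA z v s y ∧ InR y w' v) ∨ (InA z v s y ∧ OutR y w' v)) (hc : Hc U z v s i) :
    ∀ᶠ r : ℝ in 𝓝[>] 0, i ∉ Pal U (y + r * w') := by
  obtain ⟨ε, hε, h1⟩ : ∃ ε > 0, ∀ r : ℝ, 0 < r → r < ε →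
      ((1 < dist (z + (v - z) * cis (s * r)) y ∧ InR y w' v) ∨
        (dist (z + (v - z) * cis (s * r)) y < 1 ∧ OutR y w' v)) ∧
        i ∈ Pal U (z + (v - z) * cis (s * r)) := by
    rcases hs with ⟨a, b⟩ | ⟨a, b⟩
    · obtain ⟨e, he, h2⟩ := ev_gt_iff.1 (a.and hc)
      exact ⟨e, he, fun r hr1 hr2 => ⟨Or.inl ⟨(h2 r hr1 hr2).1, b⟩, (h2 r hr1 hr2).2⟩⟩
    · obtain ⟨e, he, h2⟩ := ev_gt_iff.1 (a.and hc)
      exact ⟨e, he, fun r hr1 hr2 => ⟨Or.inr ⟨(h2 r hr1 hr2).1, b⟩, (h2 r hr1 hr2).2⟩⟩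
  set δ2 := ε / 2 with hδ2
  have hδ0 : 0 < δ2 := by linarith
  have hδε : δ2 < ε := by linarith
  have h2 := (h1 δ2 hδ0 hδε).1
  have hct : Tendsto (fun r : ℝ => dist (z + (v - z) * cis (s * δ2)) (y + r * w'))
      (𝓝[>] 0) (𝓝 (dist (z + (v - z) * cis (s * δ2)) y)) :=
    tendsto_const_nhds.dist (tendsto_line y w')
  have hcq : Continuous fun δ : ℝ => z + (v - z) * cis (s * δ) :=
    continuous_const.add (continuous_const.mul (continuous_cis.comp (continuous_const.mul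
      continuous_id)))
  have hq0 : z + (v - z) * cis (s * 0) = v := by simp [cis]
  have hv : v ∈ closure (U i) := by
    have ht : Tendsto (fun δ : ℝ => z + (v - z) * cis (s * δ)) (𝓝[>] 0) (𝓝 v) := by
      have := hcq.tendsto 0
      rw [hq0] at this
      exact this.mono_left nhdsWithin_le_nhds
    exact isClosed_closure.mem_of_tendsto ht hc
  have hQ : IsPreconnected ((fun δ : ℝ => z + (v - z) * cis (s * δ)) '' Icc 0 δ2) :=
    isPreconnected_Icc.image _ hcq.continuousOn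
  have hQF : (fun δ : ℝ => z + (v - z) * cis (s * δ)) '' Icc 0 δ2 ⊆ closure (U i) := by
    rintro _ ⟨δ, ⟨hδ1, hδ3⟩, rfl⟩
    rcases hδ1.lt_or_eq with h6 | h6
    · exact (h1 δ h6 (by linarith)).2
    · simp only [← h6]
      rw [hq0]
      exact hv
  have m0 : v ∈ (fun δ : ℝ => z + (v - z) * cis (s * δ)) '' Icc 0 δ2 :=
    ⟨0, ⟨le_rfl, hδ0.le⟩, hq0⟩
  have m2 : z + (v - z) * cis (s * δ2) ∈ (fun δ : ℝ => z + (v - z) * cis (s * δ)) '' Icc 0 δ2 :=
    ⟨δ2, ⟨hδ0.le, le_rfl⟩, rfl⟩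
  rcases h2 with ⟨a, b⟩ | ⟨a, b⟩
  · filter_upwards [hct.eventually (Ioi_mem_nhds a), b] with r h4 h5
    exact h.wlemma hQ hQF m0 m2 (by rw [dist_comm]; exact h5) h4
  · filter_upwards [hct.eventually (Iio_mem_nhds a), b] with r h4 h5
    exact h.wlemma hQ hQF m2 m0 h4 (by rw [dist_comm]; exact h5)

theorem Irr.not_dx_ray_arc (h : Irr U T) {z v y w' : ℂ} {s : ℝ} {i : Fin k}
    (hs : (OutA z v s y ∧ InR y w' v) ∨ (InA z v s y ∧ OutR y w' v)) (hc : Hc U z v s i) :
    ¬ Dx T y w' i := by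
  intro hd
  obtain ⟨r, h1, h2⟩ := (hd.and_eventually (h.mx.ray_arc hs hc)).exists
  exact h2 (h.sub _ h1)

/-- the exact tangent ray at `z` in the direction of the half arc: the circles about its points cross
the half arc -/
theorem Mx.ray_tan (h : Mx U) {z v w : ℂ} {s : ℝ} {i : Fin k} (hvz : dist v z = 1)
    (hs1 : s = 1 ∨ s = -1) (hw : ip w (v - z) = 0)
    (hs : 0 < ip w (s * (Complex.I * (v - z)))) (hc : Hc U z v s i) :
    ∀ᶠ r : ℝ in 𝓝[>] 0, i ∉ Pal U (z + r * w) := by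
  obtain ⟨ε, hε, h1⟩ := ev_gt_iff.1 hc
  set δ2 := min (ε / 2) 1 with hδ2
  have hδ0 : 0 < δ2 := lt_min (by linarith) one_pos
  have hδε : δ2 < ε := by have := min_le_left (ε / 2) 1; linarith
  have hδ1 : δ2 ≤ 1 := min_le_right _ _
  have hw0 : w ≠ 0 := by
    rintro rfl
    simp [ip] at hs
  have hcq : Continuous fun δ : ℝ => z + (v - z) * cis (s * δ) :=
    continuous_const.add (continuous_const.mul (continuous_cis.comp (continuous_const.mul
      continuous_id)))
  have hq0 : z + (v - z) * cis (s * 0) = v := by simp [cis]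
  have hv : v ∈ closure (U i) := by
    have ht : Tendsto (fun δ : ℝ => z + (v - z) * cis (s * δ)) (𝓝[>] 0) (𝓝 v) := by
      have := hcq.tendsto 0
      rw [hq0] at this
      exact this.mono_left nhdsWithin_le_nhds
    exact isClosed_closure.mem_of_tendsto ht hc
  have hQ : IsPreconnected ((fun δ : ℝ => z + (v - z) * cis (s * δ)) '' Icc 0 δ2) :=
    isPreconnected_Icc.image _ hcq.continuousOn
  have hQF : (fun δ : ℝ => z + (v - z) * cis (s * δ)) '' Icc 0 δ2 ⊆ closure (U i) := by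
    rintro _ ⟨δ, ⟨hδ1, hδ3⟩, rfl⟩
    rcases hδ1.lt_or_eq with h6 | h6
    · exact h1 δ h6 (by linarith)
    · simp only [← h6]
      rw [hq0]
      exact hv
  have m0 : v ∈ (fun δ : ℝ => z + (v - z) * cis (s * δ)) '' Icc 0 δ2 :=
    ⟨0, ⟨le_rfl, hδ0.le⟩, hq0⟩
  have m2 : z + (v - z) * cis (s * δ2) ∈ (fun δ : ℝ => z + (v - z) * cis (s * δ)) '' Icc 0 δ2 :=
    ⟨δ2, ⟨hδ0.le, le_rfl⟩, rfl⟩
  set g := z + (v - z) * cis (s * δ2) with hg
  have hn : ‖v - z‖ = 1 := by rw [← dist_eq_norm]; exact hvz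
  have hgz : dist g z = 1 := by
    rw [hg, dist_eq_norm, add_sub_cancel_left, norm_mul, hn, norm_cis, one_mul]
  -- first order at the far point
  have hin : 0 < ip w (g - z) := by
    have e1 : ip w (g - z) = Real.cos (s * δ2) * ip w (v - z) +
        Real.sin (s * δ2) * ip w (Complex.I * (v - z)) := by
      rw [hg, add_sub_cancel_left]
      unfold ip
      simp only [Complex.mul_re, Complex.mul_im, cis_re, cis_im, Complex.I_re, Complex.I_im]
      ring
    have e2 : ip w (s * (Complex.I * (v - z))) = s * ip w (Complex.I * (v - z)) := by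
      unfold ip
      simp only [Complex.mul_re, Complex.mul_im, Complex.ofReal_re, Complex.ofReal_im]
      ring
    have hsin : 0 < Real.sin δ2 := Real.sin_pos_of_pos_of_lt_pi hδ0 (by
      have := Real.pi_gt_three; linarith)
    rw [e1, hw, mul_zero, zero_add]
    rw [e2] at hs
    rcases hs1 with h6 | h6 <;> rw [h6] at hs ⊢
    · rw [one_mul] at hs ⊢; exact mul_pos hsin hs
    · rw [neg_one_mul, Real.sin_neg]
      nlinarith
  have hO : OutR z w v := OutR.of_orth (by rw [dist_comm]; exact hvz) (by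
    have : ip w (z - v) = -ip w (v - z) := by unfold ip; simp; ring
    rw [this, hw, neg_zero]) hw0
  have hI : InR z w g := InR.of_neg (by rw [dist_comm]; exact hgz) (by
    have : ip w (z - g) = -ip w (g - z) := by unfold ip; simp; ring
    rw [this]; linarith)
  filter_upwards [hO, hI] with r h4 h5
  exact h.wlemma hQ hQF m2 m0 (by rw [dist_comm]; exact h5) (by rw [dist_comm]; exact h4)

theorem Irr.not_dx_ray_tan (h : Irr U T) {z v w : ℂ} {s : ℝ} {i : Fin k} (hvz : dist v z = 1)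
    (hs1 : s = 1 ∨ s = -1) (hw : ip w (v - z) = 0)
    (hs : 0 < ip w (s * (Complex.I * (v - z)))) (hc : Hc U z v s i) : ¬ Dx T z w i := by
  intro hd
  obtain ⟨r, h1, h2⟩ := (hd.and_eventually (h.mx.ray_tan hvz hs1 hw hs hc)).exists
  exact h2 (h.sub _ h1)

/-- a colour which is absent outside `S(q)` near `v` is not present in an outer ray -/
theorem Irr.not_dx_outR (h : Irr U T) {v q w : ℂ} {i : Fin k}
    (hs : ∀ᶠ x in 𝓝 v, 1 < dist x q → i ∉ Pal U x) (hw : OutR v w q) : ¬ Dx T v w i := by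
  intro hd
  obtain ⟨r, h1, h2, h3⟩ := (hd.and_eventually (((tendsto_line v w).eventually hs).and hw)).exists
  exact h2 h3 (h.sub _ h1)

/-- a colour which is absent inside `S(q)` near `v` is not present in an inner ray -/
theorem Irr.not_dx_inR (h : Irr U T) {v q w : ℂ} {i : Fin k}
    (hs : ∀ᶠ x in 𝓝 v, dist x q < 1 → i ∉ Pal U x) (hw : InR v w q) : ¬ Dx T v w i := by
  intro hd
  obtain ⟨r, h1, h2, h3⟩ := (hd.and_eventually (((tendsto_line v w).eventually hs).and hw)).exists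
  exact h2 h3 (h.sub _ h1)

end Vale.Agent.P032.Six
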