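import Vale.Agent.P032W.H357.Rd
import Vale.Agent.P032W.H820.Curve

/-!
# P032: the lattice facts about the circle of a six-coloured point at one time

Points `Pt z u p = z + p.1 * rd u + p.2 * rd (u + 1)`, `p : Z x Z`; neighbours `p + stp d`, `d : Fin 6`, in the
directions `u + d`.  Germs `g : Fin 24` at every point: `g = 0..5` the exact rays in the directions `u + g`,
`g = 6 + 3 j + k` tangent to the direction `u + j + 1/2`: the exact ray (`k = 0`) and the parabolas
`p + r w + r^2 i w` (`k = 1`), `p + r w - r^2 i w` (`k = 2`).  At `z` the entries `g = 0..5` mean: limit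
direction in the open sector about `u + g`.

* `ins g d` : the germ is inside the unit disc about the neighbour `d`,
* `Sys s t D` : all facts used, `C6.sys` : they hold for `SL u`, `SR u`, `DD T z u`.
-/

open Set Filter Topology Metric

noncomputable section

namespace Vale.Agent.P032.H357

open Vale.Agent.P032.Six Vale.Agent.P032.Words Vale.Agent.P032.S5.H767 Vale.Agent.P032.H892

variable {U : Fin 6 → Set ℂ} {T : ℂ → Set (Fin 6)} {z : ℂ}

/-! ### codes -/

/-- angle of the germ in units of 30 degrees -/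
def ang (g : Fin 24) : ℕ := if g.val < 6 then 2 * g.val else 2 * ((g.val - 6) / 3) + 1

/-- kind of the germ: `0` exact ray, `1`, `2` parabolas -/
def knd (g : Fin 24) : ℕ := if g.val < 6 then 0 else (g.val - 6) % 3

/-- the germ is inside the unit disc about the neighbour `d` -/
def ins (g : Fin 24) (d : Fin 6) : Bool :=
  let r := (ang g + 12 - 2 * d.val) % 12
  decide (r ≤ 2) || decide (10 ≤ r) || (decide (r = 9) && decide (knd g = 1)) ||
    (decide (r = 3) && decide (knd g = 2))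

/-- the half arc at `y_k` after (`s = true`) or before is inside the unit disc about the neighbour `d` of `y_k` -/
def insA (s : Bool) (k d : Fin 6) : Bool :=
  let r := (2 * k.val + (if s then 3 else 9) + 12 - 2 * d.val) % 12
  decide (r ≤ 2) || decide (10 ≤ r)

/-- lattice steps -/
def stp (d : Fin 6) : ℤ × ℤ :=
  ((![1, 0, -1, -1, 0, 1] : Fin 6 → ℤ) d, (![0, 1, 1, 0, -1, -1] : Fin 6 → ℤ) d)

theorem stp_opp (d : Fin 6) : stp d + stp (d + 3) = 0 := by
  revert d; decide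

theorem stp_ne (d : Fin 6) : stp d ≠ 0 := by
  revert d; decide

theorem stp_ne2 (k d : Fin 6) (h : d ≠ k + 3) : stp k + stp d ≠ 0 := by
  revert k d; decide

theorem ins_sec (g : Fin 24) (hg : g.val < 6) (d : Fin 6) : ins g d ≠ ins g (d + 3) := by
  revert g d; decide

/-! ### angles -/

theorem co_per (t : ℝ) (n : ℤ) : co (t + 6 * n) = co t := by
  unfold co
  have : (t + 6 * n) * (Real.pi / 3) = t * (Real.pi / 3) + n * (2 * Real.pi) := by ring
  rw [this, Real.cos_add_int_mul_two_pi]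

theorem rd_per (t : ℝ) (n : ℤ) : rd (t + 6 * n) = rd t := by
  unfold rd
  apply Complex.ext
  · rw [cis_re, cis_re]; exact co_per t n
  · rw [cis_im, cis_im]
    have : (t + 6 * n) * (Real.pi / 3) = t * (Real.pi / 3) + n * (2 * Real.pi) := by ring
    rw [this, Real.sin_add_int_mul_two_pi]

theorem rd_add (s t : ℝ) : rd (s + t) = rd s * rd t := by
  unfold rd; rw [← Six.cis_add]; congr 1; ring

theorem rd_quarter : rd (3 / 2) = Complex.I := by
  unfold rd
  have e : (3 / 2 : ℝ) * (Real.pi / 3) = Real.pi / 2 := by ring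
  rw [e]
  apply Complex.ext
  · rw [cis_re, Real.cos_pi_div_two]; simp
  · rw [cis_im, Real.sin_pi_div_two]; simp

theorem I_rd (θ : ℝ) : Complex.I * rd θ = rd (θ + 3 / 2) := by
  rw [rd_add, rd_quarter]; ring

theorem rd_three (θ : ℝ) : rd (θ + 3) = -rd θ := by
  have : θ + 3 = θ + 3 / 2 + 3 / 2 := by ring
  rw [this, ← I_rd, ← I_rd, ← mul_assoc, Complex.I_mul_I]; ring

theorem rd_one : rd 1 = 1 / 2 + (Real.sqrt 3 / 2 : ℝ) * Complex.I := by
  unfold rd
  rw [one_mul]
  apply Complex.ext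
  · rw [cis_re, Real.cos_pi_div_three]; simp
  · rw [cis_im, Real.sin_pi_div_three]; simp

theorem rd_two (θ : ℝ) : rd (θ + 2) = rd (θ + 1) - rd θ := by
  have h3 : Real.sqrt 3 * Real.sqrt 3 = 3 := Real.mul_self_sqrt (by norm_num)
  have h1 : rd 1 * rd 1 = rd 1 - 1 := by
    rw [rd_one]
    apply Complex.ext
    · simp; nlinarith
    · simp
      ring
  have e : θ + 2 = θ + 1 + 1 := by ring
  rw [e, rd_add (θ + 1), rd_add θ 1, mul_assoc, h1]; ring

theorem co_zero_r {a d : ℕ} (hd : d ≤ 6) :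
    co ((a : ℝ) / 2 - d) = co ((((a + 12 - 2 * d) % 12 : ℕ) : ℝ) / 2) := by
  have h1 := Nat.div_add_mod (a + 12 - 2 * d) 12
  set r := (a + 12 - 2 * d) % 12 with hr
  set n := (a + 12 - 2 * d) / 12 with hn
  have h2 : a + 12 = 12 * n + r + 2 * d := by omega
  have h3 : (a : ℝ) + 12 = 12 * n + r + 2 * d := by exact_mod_cast h2
  have e : (a : ℝ) / 2 - d = (r : ℝ) / 2 + 6 * (((n : ℤ) - 1 : ℤ) : ℝ) := by
    push_cast; linarith
  rw [e, co_per]

theorem co_pos_r {r : ℕ} (h : r ≤ 2 ∨ (10 ≤ r ∧ r < 12)) : 0 < co ((r : ℝ) / 2) := by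
  unfold co
  rcases h with h | h
  · have h1 : (r : ℝ) ≤ 2 := by exact_mod_cast h
    have h2 : (0 : ℝ) ≤ r := Nat.cast_nonneg r
    exact cos_pos6 (n := 0) (by push_cast; linarith) (by push_cast; linarith)
  · have h1 : (10 : ℝ) ≤ r := by exact_mod_cast h.1
    have h2 : (r : ℝ) < 12 := by exact_mod_cast h.2
    exact cos_pos6 (n := 1) (by push_cast; linarith) (by push_cast; linarith)

theorem co_neg_r {r : ℕ} (h : 4 ≤ r ∧ r ≤ 8) : co ((r : ℝ) / 2) < 0 := by
  unfold co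
  have h1 : (4 : ℝ) ≤ r := by exact_mod_cast h.1
  have h2 : (r : ℝ) ≤ 8 := by exact_mod_cast h.2
  exact cos_neg6 (n := 0) (by push_cast; linarith) (by push_cast; linarith)

theorem co_three_half' : co (3 / 2) = 0 := by
  unfold co
  have e : (3 / 2 : ℝ) * (Real.pi / 3) = Real.pi / 2 := by ring
  rw [e, Real.cos_pi_div_two]

theorem co_three : co 3 = -1 := by
  unfold co
  have e : (3 : ℝ) * (Real.pi / 3) = Real.pi := by ring
  rw [e, Real.cos_pi]

theorem co_self : co 0 = 1 := by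
  unfold co; rw [zero_mul, Real.cos_zero]

/-! ### points and germs -/

/-- lattice points -/
def Pt (z : ℂ) (u : ℝ) (p : ℤ × ℤ) : ℂ := z + p.1 * rd u + p.2 * rd (u + 1)

theorem Pt_zero (z : ℂ) (u : ℝ) : Pt z u 0 = z := by simp [Pt]

theorem Pt_stp (z : ℂ) (u : ℝ) (p : ℤ × ℤ) (d : Fin 6) : Pt z u (p + stp d) = Pt z u p + rd (u + d.val) := by
  have h2 := rd_two u
  have h3 := rd_three u
  have h4 : rd (u + 4) = -rd (u + 1) := by
    have := rd_three (u + 1)
    rwa [show u + 1 + 3 = u + 4 by ring] at this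
  have h5 : rd (u + 5) = -rd (u + 2) := by
    have := rd_three (u + 2)
    rwa [show u + 2 + 3 = u + 5 by ring] at this
  unfold Pt stp
  fin_cases d
  · simp; ring
  · simp; ring
  · simp [h2]; ring
  · simp [h3]; ring
  · simp [h4]; ring
  · simp [h5, h2]; ring

/-- direction of a germ -/
def gw (u : ℝ) (g : Fin 24) : ℂ := rd (u + (ang g : ℝ) / 2)

/-- second coefficient of a germ -/
def gb (u : ℝ) (g : Fin 24) : ℂ :=
  if knd g = 1 then Complex.I * gw u g else if knd g = 2 then -(Complex.I * gw u g) else 0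

/-- the germ `g` at the point `p` -/
def germ (p : ℂ) (u : ℝ) (g : Fin 24) : ℝ → ℂ := par p (gw u g) (gb u g)

theorem germ_zero (p : ℂ) (u : ℝ) (g : Fin 24) : germ p u g 0 = p := par_zero _ _ _

theorem germ_cont (p : ℂ) (u : ℝ) (g : Fin 24) : Continuous (germ p u g) := continuous_par _ _ _

theorem ang_lt (g : Fin 24) : ang g < 12 := by
  revert g; decide

theorem knd_lt (g : Fin 24) : knd g < 3 := by
  revert g; decide

/-- first order data of a germ with respect to the neighbour `d` -/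
theorem gw_ip (p : ℂ) (u : ℝ) (g : Fin 24) (d : Fin 6) :
    ip (gw u g) (p - (p + rd (u + d.val))) = -co ((((ang g + 12 - 2 * d.val) % 12 : ℕ) : ℝ) / 2) := by
  have e : p - (p + rd (u + d.val)) = -rd (u + d.val) := by ring
  rw [e, ip_neg_right, gw, ip_rd, ← co_zero_r (a := ang g) (d := d.val) (by have := d.isLt; omega)]
  congr 2; ring

theorem I_gw_ip (p : ℂ) (u : ℝ) (g : Fin 24) (d : Fin 6) :
    ip (Complex.I * gw u g) (p - (p + rd (u + d.val))) =
      -co ((((ang g + 3 + 12 - 2 * d.val) % 12 : ℕ) : ℝ) / 2) := by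
  have e : p - (p + rd (u + d.val)) = -rd (u + d.val) := by ring
  rw [e, ip_neg_right, gw, I_rd, ip_rd,
    ← co_zero_r (a := ang g + 3) (d := d.val) (by have := d.isLt; omega)]
  congr 2; push_cast; ring

theorem ip_gw_self (u : ℝ) (g : Fin 24) : ip (gw u g) (gw u g) = 1 := by
  rw [gw, ip_rd, sub_self, co_self]

theorem ip_neg_left (a b : ℂ) : ip (-a) b = -ip a b := by
  unfold ip; simp; ring

theorem ip_zero_left (b : ℂ) : ip 0 b = 0 := by unfold ip; simp

/-- the sign of a tangent germ -/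
theorem gb_ip (p : ℂ) (u : ℝ) (g : Fin 24) (d : Fin 6) :
    ip (gb u g) (p - (p + rd (u + d.val))) =
      if knd g = 1 then -co ((((ang g + 3 + 12 - 2 * d.val) % 12 : ℕ) : ℝ) / 2)
      else if knd g = 2 then co ((((ang g + 3 + 12 - 2 * d.val) % 12 : ℕ) : ℝ) / 2) else 0 := by
  unfold gb
  split_ifs with h1 h2
  · exact I_gw_ip p u g d
  · rw [ip_neg_left, I_gw_ip, neg_neg]
  · exact ip_zero_left _

theorem ing (p : ℂ) (u : ℝ) {g : Fin 24} {d : Fin 6} (h : ins g d = true) :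
    InG (germ p u g) (p + rd (u + d.val)) := by
  have h1 := gw_ip p u g d
  have h2 := gb_ip p u g d
  have h4 := ip_gw_self u g
  unfold ins at h
  simp only [Bool.or_eq_true, Bool.and_eq_true, decide_eq_true_eq] at h
  set r := (ang g + 12 - 2 * d.val) % 12 with hr
  have hr12 : r < 12 := Nat.mod_lt _ (by norm_num)
  have hd := d.isLt
  have hr3 : (ang g + 3 + 12 - 2 * d.val) % 12 = (r + 3) % 12 := by omega
  rw [hr3] at h2
  rcases h with ((h | h) | ⟨h, hk⟩) | ⟨h, hk⟩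
  · refine InG.par_neg (dist_rd _ _) ?_
    rw [h1]
    have := co_pos_r (Or.inl h)
    linarith
  · refine InG.par_neg (dist_rd _ _) ?_
    rw [h1]
    have := co_pos_r (Or.inr ⟨h, hr12⟩)
    linarith
  · refine InG.par_orth (dist_rd _ _) ?_ ?_
    · rw [h1, h]
      have : co (((9 : ℕ) : ℝ) / 2) = 0 := by
        have e : (((9 : ℕ) : ℝ) / 2) = -(3 / 2) + 6 * ((1 : ℤ) : ℝ) := by push_cast; norm_num
        rw [e, co_per, co_neg, co_three_half']
      rw [this, neg_zero]
    · rw [h4, h2, if_pos hk, h]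
      norm_num
      rw [co_self]
      norm_num
  · refine InG.par_orth (dist_rd _ _) ?_ ?_
    · rw [h1, h]
      norm_num
      rw [co_three_half']
    · rw [h4, h2, if_neg (by omega), if_pos hk, h]
      norm_num
      rw [co_three]
      norm_num

theorem outg (p : ℂ) (u : ℝ) {g : Fin 24} {d : Fin 6} (h : ins g d = false) :
    OutG (germ p u g) (p + rd (u + d.val)) := by
  have h1 := gw_ip p u g d
  have h2 := gb_ip p u g d
  have h4 := ip_gw_self u g
  unfold ins at h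
  simp only [Bool.or_eq_false_iff, Bool.and_eq_false_iff, decide_eq_false_iff_not] at h
  set r := (ang g + 12 - 2 * d.val) % 12 with hr
  have hr12 : r < 12 := Nat.mod_lt _ (by norm_num)
  have hd := d.isLt
  have hkk := knd_lt g
  have hr3 : (ang g + 3 + 12 - 2 * d.val) % 12 = (r + 3) % 12 := by omega
  rw [hr3] at h2
  obtain ⟨⟨⟨a1, a2⟩, a3⟩, a4⟩ := h
  by_cases h3 : r = 3
  · refine OutG.par_orth (dist_rd _ _) ?_ ?_
    · rw [h1, h3]
      norm_num
      rw [co_three_half']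
    · rw [h4, h2, h3]
      norm_num
      split_ifs with hk1 hk2
      · rw [co_three]; norm_num
      · omega
      · norm_num
  by_cases h9 : r = 9
  · refine OutG.par_orth (dist_rd _ _) ?_ ?_
    · rw [h1, h9]
      have : co (((9 : ℕ) : ℝ) / 2) = 0 := by
        have e : (((9 : ℕ) : ℝ) / 2) = -(3 / 2) + 6 * ((1 : ℤ) : ℝ) := by push_cast; norm_num
        rw [e, co_per, co_neg, co_three_half']
      rw [this, neg_zero]
    · rw [h4, h2, h9]
      norm_num
      split_ifs with hk1 hk2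
      · omega
      · rw [co_self]; norm_num
      · norm_num
  · refine OutG.par_pos (dist_rd _ _) ?_
    rw [h1]
    have := co_neg_r (r := r) (by omega)
    linarith

/-! ### presence -/

section
variable (T z)

/-- presence: germs, and open sectors of limit directions at `z` -/
def DD (u : ℝ) (p : ℤ × ℤ) (g : Fin 24) (c : Fin 6) : Prop :=
  if p = 0 ∧ g.val < 6 then ∃ θ ∈ Dr T z c, u + g.val - 1 / 2 < θ ∧ θ < u + g.val + 1 / 2
  else Dg T (germ (Pt z u p) u g) c

end

theorem dd_of_ne {u : ℝ} {p : ℤ × ℤ} {g : Fin 24} {c : Fin 6} (h : ¬ (p = 0 ∧ g.val < 6)) :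
    DD T z u p g c ↔ Dg T (germ (Pt z u p) u g) c := by
  unfold DD; rw [if_neg h]

theorem dd_sec {u : ℝ} {g : Fin 24} {c : Fin 6} (h : g.val < 6) :
    DD T z u 0 g c ↔ ∃ θ ∈ Dr T z c, u + g.val - 1 / 2 < θ ∧ θ < u + g.val + 1 / 2 := by
  unfold DD; rw [if_pos ⟨rfl, h⟩]

theorem ang_sec {g : Fin 24} (h : g.val < 6) : ang g = 2 * g.val := by
  unfold ang; rw [if_pos h]

theorem knd_sec {g : Fin 24} (h : g.val < 6) : knd g = 0 := by
  unfold knd; rw [if_pos h]

theorem germ_sec (p : ℂ) (u : ℝ) {g : Fin 24} (h : g.val < 6) (r : ℝ) :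
    germ p u g r = p + r * rd (u + g.val) := by
  unfold germ par gb gw
  rw [knd_sec h, ang_sec h]
  push_cast
  rw [mul_div_cancel_left₀ _ (two_ne_zero' ℝ)]
  simp

/-- presence on a germ gives the entry -/
theorem dd_of_dg {u : ℝ} {p : ℤ × ℤ} {g : Fin 24} {c : Fin 6}
    (h : Dg T (germ (Pt z u p) u g) c) : DD T z u p g c := by
  by_cases hp : p = 0 ∧ g.val < 6
  · obtain ⟨rfl, hg⟩ := hp
    rw [dd_sec hg]
    refine ⟨u + g.val, dr_of_dx ?_, by linarith, by linarith⟩
    rw [Pt_zero] at h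
    refine h.mono fun r hr => ?_
    rw [germ_sec _ _ hg] at hr
    exact hr
  · exact (dd_of_ne hp).2 h

theorem dd_ne (h : Irr U T) (u : ℝ) (p : ℤ × ℤ) (g : Fin 24) : ∃ c, DD T z u p g c := by
  obtain ⟨c, hc⟩ := h.exists_dg (germ (Pt z u p) u g)
  exact ⟨c, dd_of_dg hc⟩

/-! ### filters -/

/-- the filter of a limit direction -/
def fdir (z : ℂ) (θ : ℝ) : Filter ℂ := Filter.map (po z) (𝓝 ((0 : ℝ), θ) ⊓ 𝓟 {q : ℝ × ℝ | 0 < q.1})

theorem fdir_le (z : ℂ) (θ : ℝ) : fdir z θ ≤ 𝓝 z := by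
  have h := (continuous_po z).tendsto ((0 : ℝ), θ)
  rw [po_zero] at h
  exact h.mono_left inf_le_left

theorem ff_dir {θ : ℝ} {c : Fin 6} (h : θ ∈ Dr T z c) : Ff T (fdir z θ) c := by
  have h1 := mem_dr.1 h
  unfold Ff fdir
  rw [Filter.frequently_map, Filter.frequently_inf_principal]
  exact h1

/-- a limit direction is inside the unit disc about `z + rd φ` -/
theorem fdir_in {θ φ : ℝ} (h : 0 < co (θ - φ)) : InF' (fdir z θ) (z + rd φ) := by
  unfold InF' fdir
  rw [Filter.eventually_map, Filter.eventually_inf_principal]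
  filter_upwards [side_po z h.ne'] with q hq h1
  have h2 := hq h1
  by_contra hcon
  push Not at hcon
  nlinarith

theorem fdir_out {θ φ : ℝ} (h : co (θ - φ) < 0) : OutF' (fdir z θ) (z + rd φ) := by
  unfold OutF' fdir
  rw [Filter.eventually_map, Filter.eventually_inf_principal]
  filter_upwards [side_po z h.ne] with q hq h1
  have h2 := hq h1
  by_contra hcon
  push Not at hcon
  nlinarith

theorem co_pos_near {t : ℝ} {n : ℤ} (h1 : 6 * n - 3 / 2 < t) (h2 : t < 6 * n + 3 / 2) : 0 < co t :=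
  cos_pos6 h1 h2

theorem co_neg_near {t : ℝ} {n : ℤ} (h1 : 6 * n + 3 / 2 < t) (h2 : t < 6 * n + 9 / 2) : co t < 0 :=
  cos_neg6 h1 h2

/-- the side of an open sector -/
theorem sec_in_pos {u θ : ℝ} {g : Fin 24} {d : Fin 6} (hg : g.val < 6) (h1 : u + g.val - 1 / 2 < θ)
    (h2 : θ < u + g.val + 1 / 2) (h : ins g d = true) : 0 < co (θ - (u + d.val)) := by
  have key : ∃ n : ℤ, -1 ≤ (g.val : ℤ) - d.val - 6 * n ∧ (g.val : ℤ) - d.val - 6 * n ≤ 1 := by
    have : ∀ g : Fin 24, g.val < 6 → ∀ d : Fin 6, ins g d = true →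
        (-1 ≤ (g.val : ℤ) - d.val - 6 * 0 ∧ (g.val : ℤ) - d.val - 6 * 0 ≤ 1) ∨
        (-1 ≤ (g.val : ℤ) - d.val - 6 * 1 ∧ (g.val : ℤ) - d.val - 6 * 1 ≤ 1) ∨
        (-1 ≤ (g.val : ℤ) - d.val - 6 * (-1) ∧ (g.val : ℤ) - d.val - 6 * (-1) ≤ 1) := by decide
    rcases this g hg d h with h | h | h
    · exact ⟨0, h⟩
    · exact ⟨1, h⟩
    · exact ⟨-1, h⟩
  obtain ⟨n, a, b⟩ := key
  have a' : (-1 : ℝ) ≤ (g.val : ℝ) - d.val - 6 * n := by exact_mod_cast a
  have b' : (g.val : ℝ) - d.val - 6 * n ≤ (1 : ℝ) := by exact_mod_cast b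
  exact co_pos_near (n := n) (by linarith) (by linarith)

theorem sec_out_neg {u θ : ℝ} {g : Fin 24} {d : Fin 6} (hg : g.val < 6) (h1 : u + g.val - 1 / 2 < θ)
    (h2 : θ < u + g.val + 1 / 2) (h : ins g d = false) : co (θ - (u + d.val)) < 0 := by
  have key : ∃ n : ℤ, 2 ≤ (g.val : ℤ) - d.val - 6 * n ∧ (g.val : ℤ) - d.val - 6 * n ≤ 4 := by
    have : ∀ g : Fin 24, g.val < 6 → ∀ d : Fin 6, ins g d = false →
        (2 ≤ (g.val : ℤ) - d.val - 6 * 0 ∧ (g.val : ℤ) - d.val - 6 * 0 ≤ 4) ∨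
        (2 ≤ (g.val : ℤ) - d.val - 6 * 1 ∧ (g.val : ℤ) - d.val - 6 * 1 ≤ 4) ∨
        (2 ≤ (g.val : ℤ) - d.val - 6 * (-1) ∧ (g.val : ℤ) - d.val - 6 * (-1) ≤ 4) := by decide
    rcases this g hg d h with h | h | h
    · exact ⟨0, h⟩
    · exact ⟨1, h⟩
    · exact ⟨-1, h⟩
  obtain ⟨n, a, b⟩ := key
  have a' : (2 : ℝ) ≤ (g.val : ℝ) - d.val - 6 * n := by exact_mod_cast a
  have b' : (g.val : ℝ) - d.val - 6 * n ≤ (4 : ℝ) := by exact_mod_cast b
  exact co_neg_near (n := n) (by linarith) (by linarith)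

/-- the filter of an entry -/
theorem dd_fil {u : ℝ} {p : ℤ × ℤ} {g : Fin 24} {c : Fin 6} (h : DD T z u p g c) :
    ∃ F : Filter ℂ, F ≤ 𝓝 (Pt z u p) ∧ Ff T F c ∧
      (∀ d : Fin 6, ins g d = true → InF' F (Pt z u p + rd (u + d.val))) ∧
      (∀ d : Fin 6, ins g d = false → OutF' F (Pt z u p + rd (u + d.val))) := by
  by_cases hp : p = 0 ∧ g.val < 6
  · obtain ⟨rfl, hg⟩ := hp
    obtain ⟨θ, hθ, h1, h2⟩ := (dd_sec hg).1 h
    rw [Pt_zero]
    exact ⟨fdir z θ, fdir_le z θ, ff_dir hθ, fun d hd => fdir_in (sec_in_pos hg h1 h2 hd),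
      fun d hd => fdir_out (sec_out_neg hg h1 h2 hd)⟩
  · have h := (dd_of_ne hp).1 h
    refine ⟨cf (germ (Pt z u p) u g), ?_, h.ff, fun d hd => (ing _ u hd).fil, fun d hd => (outg _ u hd).fil⟩
    have h3 := cf_le (germ_cont (Pt z u p) u g)
    rwa [germ_zero] at h3

theorem Pt_opp (z : ℂ) (u : ℝ) (p : ℤ × ℤ) (d : Fin 6) :
    Pt z u (p + stp d) + rd (u + (d + 3 : Fin 6).val) = Pt z u p := by
  rw [← Pt_stp, add_assoc, stp_opp, add_zero]

/-- **R1** -/
theorem dd_r1 (h : Irr U T) {u : ℝ} {p : ℤ × ℤ} {d : Fin 6} {g g' : Fin 24} {c : Fin 6}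
    (hs : ins g d ≠ ins g' (d + 3) ∨ g = g') (hd : DD T z u (p + stp d) g' c) :
    ∃ c', c' ≠ c ∧ DD T z u p g c' := by
  suffices hh : ∃ c', c' ≠ c ∧ Dg T (germ (Pt z u p) u g) c' by
    obtain ⟨c', h1, h2⟩ := hh
    exact ⟨c', h1, dd_of_dg h2⟩
  by_cases hx : ins g d ≠ ins g' (d + 3)
  · obtain ⟨F, hF, hf, hi, ho⟩ := dd_fil hd
    have h1 := hi (d + 3)
    have h2 := ho (d + 3)
    rw [Pt_opp] at h1 h2
    refine h.dg_cross (germ_cont _ u g) hF ?_ hf
    rw [germ_zero, Pt_stp]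
    cases hg : ins g d
    · cases hg' : ins g' (d + 3)
      · exact absurd (hg.trans hg'.symm) hx
      · exact Or.inl ⟨outg _ u hg, h1 hg'⟩
    · cases hg' : ins g' (d + 3)
      · exact Or.inr ⟨ing _ u hg, h2 hg'⟩
      · exact absurd (hg.trans hg'.symm) hx
  · have hgg : g = g' := by
      rcases hs with h1 | h1
      · exact absurd h1 hx
      · exact h1
    subst hgg
    have hg6 : ¬ g.val < 6 := fun h6 => hx (ins_sec g h6 d)
    have hd' := (dd_of_ne fun h6 => hg6 h6.2).1 hd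
    refine h.dg_shift (fun r => ?_) hd'
    unfold germ par
    rw [Pt_stp, dist_eq_norm]
    have e : Pt z u p + (↑r * gw u g + ↑r ^ 2 * gb u g) -
        (Pt z u p + rd (u + d.val) + (↑r * gw u g + ↑r ^ 2 * gb u g)) = -rd (u + d.val) := by ring
    rw [e, norm_neg, norm_rd]

end Vale.Agent.P032.H357
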