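import Vale.Agent.P032W.H357.Sys

/-!
# P032: the lattice facts about the circle of a six-coloured point at one time, second part

* `Sys s t D` : the facts; `C6.sys` : they hold for `SL u`, `SR u`, `DD T z u`.
-/

open Set Filter Topology Metric

noncomputable section

namespace Vale.Agent.P032.H357

open Vale.Agent.P032.Six Vale.Agent.P032.Words Vale.Agent.P032.S5.H767 Vale.Agent.P032.H892

variable {U : Fin 6 → Set ℂ} {T : ℂ → Set (Fin 6)} {z : ℂ}

/-! ### one sided colours -/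

theorem Pt_pt (z : ℂ) (u : ℝ) (k : Fin 6) : Pt z u (stp k) = pt z (u + k.val) := by
  have h := Pt_stp z u 0 k
  rw [zero_add, Pt_zero] at h
  rw [h, pt_sub]

theorem dd_out (h : Irr U T) {u : ℝ} {k : Fin 6} {g : Fin 24} {c : Fin 6}
    (hs : OutF U z (pt z (u + k.val)) c) (hg : ins g (k + 3) = false) : ¬ DD T z u (stp k) g c := by
  intro hd
  obtain ⟨F, hF, hf, -, ho⟩ := dd_fil hd
  have h1 := ho (k + 3) hg
  have h2 := Pt_opp z u 0 k
  rw [zero_add, Pt_zero] at h2
  rw [h2] at h1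
  rw [Pt_pt] at hF
  exact h.not_ff_out hF hs h1 hf

theorem dd_inn (h : Irr U T) {u : ℝ} {k : Fin 6} {g : Fin 24} {c : Fin 6}
    (hs : InF U z (pt z (u + k.val)) c) (hg : ins g (k + 3) = true) : ¬ DD T z u (stp k) g c := by
  intro hd
  obtain ⟨F, hF, hf, hi, -⟩ := dd_fil hd
  have h1 := hi (k + 3) hg
  have h2 := Pt_opp z u 0 k
  rw [zero_add, Pt_zero] at h2
  rw [h2] at h1
  rw [Pt_pt] at hF
  exact h.not_ff_in hF hs h1 hf

/-! ### half arcs -/

/-- sign of a side -/
def sg (s : Bool) : ℝ := if s then 1 else -1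

theorem sg_or (s : Bool) : sg s = 1 ∨ sg s = -1 := by
  unfold sg; cases s
  · exact Or.inr (if_neg (by simp))
  · exact Or.inl (if_pos rfl)

theorem arc_ip (z : ℂ) (u : ℝ) (s : Bool) (k d : Fin 6) :
    ip ((sg s : ℝ) * (Complex.I * (pt z (u + k.val) - z))) (pt z (u + k.val) -
      (pt z (u + k.val) + rd (u + d.val))) =
      -co ((((2 * k.val + (if s then 3 else 9) + 12 - 2 * d.val) % 12 : ℕ) : ℝ) / 2) := by
  have e : pt z (u + k.val) - (pt z (u + k.val) + rd (u + d.val)) = -rd (u + d.val) := by ring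
  rw [rd_tan z _ (sg_or s), e, ip_neg_right, ip_rd]
  have hd := d.isLt
  rw [← co_zero_r (a := 2 * k.val + (if s then 3 else 9)) (d := d.val) (by omega)]
  congr 1
  cases s
  · have e1 : sg false = -1 := rfl
    rw [e1]
    simp only [Bool.false_eq_true, if_false]
    push_cast
    have e2 : (2 * (k.val : ℝ) + 9) / 2 - d.val =
      u + k.val + -1 * (3 / 2) - (u + d.val) + 6 * ((1 : ℤ) : ℝ) := by push_cast; ring
    rw [e2, co_per]
  · have e1 : sg true = 1 := rfl
    rw [e1]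
    simp only [if_true]
    congr 1
    push_cast
    ring

theorem two_eq (z : ℂ) (u : ℝ) (k : Fin 6) :
    pt z (u + k.val) + rd (u + k.val) = 2 * pt z (u + k.val) - z := by
  rw [pt_sub]; ring

theorem insA_self (s : Bool) (k : Fin 6) : insA s k k = false := by
  revert s k; decide

theorem insA_r (s : Bool) (k d : Fin 6) (h1 : d ≠ k) (h2 : d ≠ k + 3) :
    insA s k d = false → 4 ≤ (2 * k.val + (if s then 3 else 9) + 12 - 2 * d.val) % 12 ∧
      (2 * k.val + (if s then 3 else 9) + 12 - 2 * d.val) % 12 ≤ 8 := by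
  revert s k d; decide

theorem ina_of (z : ℂ) (u : ℝ) {s : Bool} {k d : Fin 6} (h : insA s k d = true) :
    InA z (pt z (u + k.val)) (sg s) (pt z (u + k.val) + rd (u + d.val)) := by
  refine InA.of_neg (dist_rd _ _) ?_
  rw [arc_ip]
  unfold insA at h
  simp only [Bool.or_eq_true, decide_eq_true_eq] at h
  have : 0 < co ((((2 * k.val + (if s then 3 else 9) + 12 - 2 * d.val) % 12 : ℕ) : ℝ) / 2) := by
    rcases h with h | h
    · exact co_pos_r (Or.inl h)
    · exact co_pos_r (Or.inr ⟨h, Nat.mod_lt _ (by norm_num)⟩)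
  linarith

theorem outa_of (z : ℂ) (u : ℝ) {s : Bool} {k d : Fin 6} (h2 : d ≠ k + 3) (h : insA s k d = false) :
    OutA z (pt z (u + k.val)) (sg s) (pt z (u + k.val) + rd (u + d.val)) := by
  by_cases h1 : d = k
  · subst h1
    rw [two_eq]
    exact OutA.of_two (dist_pt z _) (sg_or s)
  · refine OutA.of_pos (dist_rd _ _) ?_
    rw [arc_ip]
    have := co_neg_r (insA_r s k d h1 h2 h)
    linarith

/-- **R2** for a half arc at `y_k` and an entry at the neighbour `d` of `y_k` -/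
theorem dd_arc (h : Irr U T) {u : ℝ} {s : Bool} {k d : Fin 6} {g : Fin 24} {c : Fin 6}
    (hk : d ≠ k + 3) (hc : Hc U z (pt z (u + k.val)) (sg s) c) (hs : insA s k d ≠ ins g (d + 3)) :
    ¬ DD T z u (stp k + stp d) g c := by
  intro hd
  obtain ⟨F, hF, hf, hi, ho⟩ := dd_fil hd
  have h1 := hi (d + 3)
  have h2 := ho (d + 3)
  rw [Pt_opp, Pt_pt] at h1 h2
  rw [Pt_stp, Pt_pt] at hF
  refine h.not_ff_arc hF ?_ hc hf
  cases hA : insA s k d
  · cases hg : ins g (d + 3)
    · exact absurd (hA.trans hg.symm) hs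
    · exact Or.inl ⟨outa_of z u hk hA, h1 hg⟩
  · cases hg : ins g (d + 3)
    · exact Or.inr ⟨ina_of z u hA, h2 hg⟩
    · exact absurd (hA.trans hg.symm) hs

/-! ### half arcs and the tangent germs at `z` -/

/-- direction of a tangent germ with respect to the direction `k` -/
theorem gw_far (z : ℂ) (u : ℝ) (k : Fin 6) (g : Fin 24) (δ : ℝ) :
    ip (gw u g) (z - (z + (pt z (u + k.val) - z) * cis δ)) =
      -Real.cos (((ang g : ℝ) / 2 - k.val) * (Real.pi / 3) - δ) := by
  have e0 : pt z (u + k.val) - z = rd (u + k.val) := by rw [pt_sub]; ring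
  have e : z - (z + (pt z (u + k.val) - z) * cis δ) = -cis ((u + k.val) * (Real.pi / 3) + δ) := by
    rw [e0, Six.cis_add]; unfold rd; ring
  rw [e, ip_neg_right, gw, rd, ip_cis]
  congr 2; ring

theorem far_in (z : ℂ) (u : ℝ) {k : Fin 6} {g : Fin 24} {δ : ℝ}
    (h : 0 < Real.cos (((ang g : ℝ) / 2 - k.val) * (Real.pi / 3) - δ)) :
    InF' (cf (germ z u g)) (z + (pt z (u + k.val) - z) * cis δ) := by
  refine InG.fil (InG.par_neg ?_ ?_)
  · rw [dist_eq_norm, pt_sub]
    have : z - (z + (z + rd (u + k.val) - z) * cis δ) = -(rd (u + k.val) * cis δ) := by ring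
    rw [this, norm_neg, norm_mul, norm_rd, norm_cis, one_mul]
  · rw [gw_far]; linarith

theorem far_out (z : ℂ) (u : ℝ) {k : Fin 6} {g : Fin 24} {δ : ℝ}
    (h : Real.cos (((ang g : ℝ) / 2 - k.val) * (Real.pi / 3) - δ) < 0) :
    OutF' (cf (germ z u g)) (z + (pt z (u + k.val) - z) * cis δ) := by
  refine OutG.fil (OutG.par_pos ?_ ?_)
  · rw [dist_eq_norm, pt_sub]
    have : z - (z + (z + rd (u + k.val) - z) * cis δ) = -(rd (u + k.val) * cis δ) := by ring
    rw [this, norm_neg, norm_mul, norm_rd, norm_cis, one_mul]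
  · rw [gw_far]; linarith

/-- the angle of a germ orthogonal to the direction `k` -/
theorem cos_plus {a k : ℕ} (h : (a : ℤ) = 2 * k + 3 ∨ (a : ℤ) = 2 * k - 9) (δ : ℝ) :
    Real.cos (((a : ℝ) / 2 - k) * (Real.pi / 3) - δ) = Real.sin δ := by
  rcases h with h | h
  · have h' : (a : ℝ) = 2 * k + 3 := by exact_mod_cast h
    have : ((a : ℝ) / 2 - k) * (Real.pi / 3) - δ = Real.pi / 2 - δ := by rw [h']; ring
    rw [this, Real.cos_pi_div_two_sub]
  · have h' : (a : ℝ) = 2 * k - 9 := by exact_mod_cast h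
    have : ((a : ℝ) / 2 - k) * (Real.pi / 3) - δ = Real.pi / 2 - δ - 2 * Real.pi := by rw [h']; ring
    rw [this, Real.cos_sub_two_pi, Real.cos_pi_div_two_sub]

theorem cos_minus {a k : ℕ} (h : (a : ℤ) = 2 * k + 9 ∨ (a : ℤ) = 2 * k - 3) (δ : ℝ) :
    Real.cos (((a : ℝ) / 2 - k) * (Real.pi / 3) - δ) = -Real.sin δ := by
  rcases h with h | h
  · have h' : (a : ℝ) = 2 * k + 9 := by exact_mod_cast h
    have : ((a : ℝ) / 2 - k) * (Real.pi / 3) - δ = -(Real.pi / 2 + δ) + 2 * Real.pi := by rw [h']; ring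
    rw [this, Real.cos_add_two_pi, Real.cos_neg, add_comm, Real.cos_add_pi_div_two]
  · have h' : (a : ℝ) = 2 * k - 3 := by exact_mod_cast h
    have : ((a : ℝ) / 2 - k) * (Real.pi / 3) - δ = -(Real.pi / 2 + δ) := by rw [h']; ring
    rw [this, Real.cos_neg, add_comm, Real.cos_add_pi_div_two]

theorem sin_sg (s : Bool) (δ : ℝ) : Real.sin (sg s * δ) = sg s * Real.sin δ := by
  cases s
  · have e1 : sg false = -1 := rfl
    rw [e1, neg_one_mul, Real.sin_neg]; ring
  · have e1 : sg true = 1 := rfl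
    rw [e1, one_mul, one_mul]

/-- the condition of the rule `tan` -/
def tanc (s : Bool) (k : Fin 6) (g : Fin 24) : Bool :=
  if s then (decide (ang g = (2 * k.val + 3) % 12) && decide (knd g ≠ 2)) ||
    (decide (ang g = (2 * k.val + 9) % 12) && decide (knd g = 1))
  else (decide (ang g = (2 * k.val + 9) % 12) && decide (knd g ≠ 1)) ||
    (decide (ang g = (2 * k.val + 3) % 12) && decide (knd g = 2))

/-- what the condition means: orthogonal, inside the disc about `y_k` and outside the far ones, or conversely -/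
theorem tanc_spec (s : Bool) (k : Fin 6) (g : Fin 24) (h : tanc s k g = true) :
    (6 ≤ g.val) ∧ (
    ((ins g k = false ∧ s = true ∧ ((ang g : ℤ) = 2 * k.val + 3 ∨ (ang g : ℤ) = 2 * k.val - 9))) ∨
    ((ins g k = true ∧ s = true ∧ ((ang g : ℤ) = 2 * k.val + 9 ∨ (ang g : ℤ) = 2 * k.val - 3))) ∨
    ((ins g k = false ∧ s = false ∧ ((ang g : ℤ) = 2 * k.val + 9 ∨ (ang g : ℤ) = 2 * k.val - 3))) ∨
    ((ins g k = true ∧ s = false ∧ ((ang g : ℤ) = 2 * k.val + 3 ∨ (ang g : ℤ) = 2 * k.val - 9)))) := by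
  revert s k g; decide

/-- **R2** for a half arc at `y_k` and the tangent germs at `z` -/
theorem dd_tan (h : Irr U T) {u : ℝ} {s : Bool} {k : Fin 6} {g : Fin 24} {c : Fin 6}
    (hc : Hc U z (pt z (u + k.val)) (sg s) c) (hs : tanc s k g = true) : ¬ DD T z u 0 g c := by
  obtain ⟨h6, hs⟩ := tanc_spec s k g hs
  intro hd
  have hd := (dd_of_ne (p := 0) (fun hp => absurd hp.2 (not_lt.2 h6))).1 hd
  rw [Pt_zero] at hd
  have hsin : ∀ᶠ δ : ℝ in 𝓝[>] 0, 0 < Real.sin δ := by
    rw [ev_gt_iff]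
    exact ⟨1, one_pos, fun δ h1 h2 => Real.sin_pos_of_pos_of_lt_pi h1 (by
      have := Real.pi_gt_three; linarith)⟩
  have hvo : ins g k = false → OutF' (cf (germ z u g)) (pt z (u + k.val)) := fun hh => by
    rw [pt_sub]; exact (outg z u hh).fil
  have hvi : ins g k = true → InF' (cf (germ z u g)) (pt z (u + k.val)) := fun hh => by
    rw [pt_sub]; exact (ing z u hh).fil
  refine h.not_ff_tan (v := pt z (u + k.val)) (s := sg s) ?_ hc hd.ff
  rcases hs with ⟨h1, h2, h3⟩ | ⟨h1, h2, h3⟩ | ⟨h1, h2, h3⟩ | ⟨h1, h2, h3⟩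
  · refine Or.inl ⟨hvo h1, (hsin.mono fun δ h4 => ?_).frequently⟩
    refine far_in z u ?_
    rw [cos_plus h3, sin_sg, h2]
    show 0 < (1 : ℝ) * Real.sin δ
    linarith
  · refine Or.inr ⟨hvi h1, (hsin.mono fun δ h4 => ?_).frequently⟩
    refine far_out z u ?_
    rw [cos_minus h3, sin_sg, h2]
    show -((1 : ℝ) * Real.sin δ) < 0
    linarith
  · refine Or.inl ⟨hvo h1, (hsin.mono fun δ h4 => ?_).frequently⟩
    refine far_in z u ?_
    rw [cos_minus h3, sin_sg, h2]
    show 0 < -((-1 : ℝ) * Real.sin δ)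
    linarith
  · refine Or.inr ⟨hvi h1, (hsin.mono fun δ h4 => ?_).frequently⟩
    refine far_out z u ?_
    rw [cos_plus h3, sin_sg, h2]
    show (-1 : ℝ) * Real.sin δ < 0
    linarith

end Vale.Agent.P032.H357
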