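import Vale.Agent.P032W.H357.Sys2

/-!
# P032: the lattice facts about the circle of a six-coloured point at one time, third part

* `Sys s t D` : the facts; `C6.sys` : they hold for `SL u`, `SR u`, `DD T z u`.
-/

open Set Filter Topology Metric

noncomputable section

namespace Vale.Agent.P032.H357

open Vale.Agent.P032.Six Vale.Agent.P032.Words Vale.Agent.P032.S5.H767 Vale.Agent.P032.H892

variable {U : Fin 6 → Set ℂ} {T : ℂ → Set (Fin 6)} {z : ℂ}

/-! ### limit directions of germs at `z` -/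

theorem norm_mul_cis_arg (ζ : ℂ) : (‖ζ‖ : ℂ) * cis ζ.arg = ζ := by
  apply Complex.ext
  · rw [Complex.re_ofReal_mul, cis_re, Complex.norm_mul_cos_arg]
  · rw [Complex.im_ofReal_mul, cis_im, Complex.norm_mul_sin_arg]

theorem dr_of_par {θ : ℝ} {b : ℂ} {c : Fin 6} (h : Dg T (par z (rd θ) b) c) : θ ∈ Dr T z c := by
  rw [mem_dr]
  set ζ : ℝ → ℂ := fun r => 1 + r * (b / rd θ) with hζ
  have hc : Continuous ζ := by rw [hζ]; fun_prop
  have h0 : ζ 0 = 1 := by rw [hζ]; simp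
  have harg : ContinuousAt (fun r => (ζ r).arg) 0 := by
    refine ContinuousAt.comp (g := Complex.arg) ?_ hc.continuousAt
    rw [h0]
    exact Complex.continuousAt_arg Complex.one_mem_slitPlane
  have ht : Tendsto (fun r : ℝ => (r * ‖ζ r‖, θ + (ζ r).arg * (3 / Real.pi))) (𝓝[>] 0)
      (𝓝 ((0 : ℝ), θ)) := by
    have h1 : ContinuousAt (fun r : ℝ => (r * ‖ζ r‖, θ + (ζ r).arg * (3 / Real.pi))) 0 :=
      (continuousAt_id.mul hc.norm.continuousAt).prodMk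
        (continuousAt_const.add (harg.mul continuousAt_const))
    have h2 := h1.tendsto
    simp only [h0, Complex.arg_one, zero_mul, add_zero] at h2
    exact h2.mono_left nhdsWithin_le_nhds
  have hne : ∀ᶠ r : ℝ in 𝓝[>] 0, 0 < ‖ζ r‖ := by
    have h2 : Tendsto (fun r => ‖ζ r‖) (𝓝[>] 0) (𝓝 ‖ζ 0‖) :=
      (hc.norm.tendsto 0).mono_left nhdsWithin_le_nhds
    rw [h0, norm_one] at h2
    exact h2.eventually (Ioi_mem_nhds one_pos)
  refine ht.frequently ?_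
  refine ((Frequently.and_eventually h (hne.and self_mem_nhdsWithin))).mono fun r hr => ?_
  obtain ⟨h3, h4, h5⟩ := hr
  have h5 : (0 : ℝ) < r := h5
  refine ⟨mul_pos h5 h4, ?_⟩
  have e : po z (r * ‖ζ r‖, θ + (ζ r).arg * (3 / Real.pi)) = par z (rd θ) b r := by
    unfold po par
    simp only
    have e1 : (θ + (ζ r).arg * (3 / Real.pi)) * (Real.pi / 3) = θ * (Real.pi / 3) + (ζ r).arg := by
      have := Real.pi_ne_zero
      field_simp
    rw [e1, Six.cis_add]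
    have e2 : (((r * ‖ζ r‖ : ℝ)) : ℂ) * (cis (θ * (Real.pi / 3)) * cis (ζ r).arg) =
        r * rd θ * ((‖ζ r‖ : ℂ) * cis (ζ r).arg) := by
      unfold rd; push_cast; ring
    rw [e2, norm_mul_cis_arg]
    have e3 : ζ r = 1 + r * (b / rd θ) := rfl
    rw [e3]
    have := rd_ne θ
    field_simp
  rw [e]
  exact h3

/-- the limit direction of an entry of a tangent germ at `z` -/
theorem dr_of_dd {u : ℝ} {g : Fin 24} {c : Fin 6} (hg : 6 ≤ g.val) (h : DD T z u 0 g c) :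
    u + (ang g : ℝ) / 2 ∈ Dr T z c := by
  have h := (dd_of_ne (p := 0) (fun hp => absurd hp.2 (not_lt.2 hg))).1 h
  rw [Pt_zero] at h
  exact dr_of_par h

theorem ang_odd {g : Fin 24} {j : Fin 6} (h : ang g = 2 * j.val + 1) : 6 ≤ g.val := by
  revert g j; decide

theorem ang_even {g : Fin 24} {j : Fin 6} (h : ang g = 2 * j.val) : g.val = j.val := by
  revert g j; decide

theorem pred_val (j : Fin 6) : ∃ n : ℤ, ((j - 1 : Fin 6).val : ℤ) + 1 = j.val + 6 * n := by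
  revert j
  have : ∀ j : Fin 6, ((j - 1 : Fin 6).val : ℤ) + 1 = j.val + 6 * 0 ∨
    ((j - 1 : Fin 6).val : ℤ) + 1 = j.val + 6 * 1 := by decide
  intro j
  rcases this j with h | h
  · exact ⟨0, h⟩
  · exact ⟨1, h⟩

theorem hullS (C : C6 U T z) {u : ℝ} {g : Fin 24} {j c : Fin 6} (hg : ang g = 2 * j.val)
    (h : DD T z u 0 g c) : secIn (j - 1) (HL T z u c) ∧ secIn (j - 1) (HR T z u c) := by
  have hgj := ang_even hg
  obtain ⟨θ, hθ, h1, h2⟩ := (dd_sec (by rw [hgj]; exact j.isLt)).1 h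
  obtain ⟨n, hn⟩ := pred_val j
  have hn' : (((j - 1 : Fin 6).val : ℕ) : ℝ) + 1 = j.val + 6 * n := by exact_mod_cast hn
  rw [hgj] at h1 h2
  refine C.sec_of_dr (θ := θ + 6 * n) ((dr_per_int T z c θ n).2 hθ) ?_ ?_
  · linarith
  · linarith

theorem hullT (C : C6 U T z) {u : ℝ} {g : Fin 24} {j c : Fin 6} (hg : ang g = 2 * j.val + 1)
    (h : DD T z u 0 g c) : secIn j (HL T z u c) ∧ secIn (j - 1) (HR T z u c) := by
  have h1 := dr_of_dd (ang_odd hg) h
  obtain ⟨n, hn⟩ := pred_val j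
  have hn' : (((j - 1 : Fin 6).val : ℕ) : ℝ) + 1 = j.val + 6 * n := by exact_mod_cast hn
  have h2 : u + (((j - 1 : Fin 6).val : ℕ) : ℝ) + 3 / 2 ∈ Dr T z c := by
    have h3 := (dr_per_int T z c _ n).2 h1
    rw [hg] at h3
    have e : u + (((2 * j.val + 1 : ℕ)) : ℝ) / 2 + 6 * (n : ℝ) =
        u + (((j - 1 : Fin 6).val : ℕ) : ℝ) + 3 / 2 := by push_cast; linarith
    rwa [e] at h3
  have h4 := C.ray_of_dr h2
  rwa [sub_add_cancel] at h4

/-- the sector of an end point which does not move -/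
theorem end_in {x u : ℝ} {D : Set ℝ} (hper : ∀ θ : ℝ, ∀ n : ℤ, θ + 6 * n ∈ D ↔ θ ∈ D) (hx : x ∈ D)
    (h : m6 (⌈x - 1 / 2 - u⌉ - 1) = m6 ⌊x - 1 / 2 - u⌋) {j : Fin 6}
    (hj : j = m6 ⌊x - 1 / 2 - u⌋ + 1) : ∃ θ ∈ D, u + j.val - 1 / 2 < θ ∧ θ < u + j.val + 1 / 2 := by
  set y := x - 1 / 2 - u with hy
  have e4 := Int.floor_le_ceil y
  have e5 := Int.ceil_le_floor_add_one y
  have h1 : ⌈y⌉ = ⌊y⌋ + 1 := by
    have e6 : ⌈y⌉ = ⌊y⌋ ∨ ⌈y⌉ = ⌊y⌋ + 1 := by omega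
    rcases e6 with h6 | h6
    · exfalso
      rw [h6] at h
      have a1 := m6_val (⌊y⌋ - 1)
      have a2 := m6_val ⌊y⌋
      rw [h] at a1
      omega
    · exact h6
  have h2 := Int.lt_ceil (a := y) (z := ⌊y⌋)
  have h3 : (⌊y⌋ : ℝ) < y := h2.1 (by omega)
  have h4 := Int.lt_floor_add_one y
  have hk : ∃ n : ℤ, (j.val : ℤ) = ⌊y⌋ + 1 + 6 * n := by
    have a2 := m6_val ⌊y⌋
    have a3 : (m6 ⌊y⌋ + 1).val = ((m6 ⌊y⌋).val + 1) % 6 := by rw [Fin.val_add]; rfl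
    rw [hj, a3]
    refine ⟨((((m6 ⌊y⌋).val + 1) % 6 : ℕ) - ⌊y⌋ - 1) / 6, ?_⟩
    push_cast
    omega
  obtain ⟨n, hn⟩ := hk
  have hn' : (j.val : ℝ) = ⌊y⌋ + 1 + 6 * n := by exact_mod_cast hn
  refine ⟨x + 6 * n, (hper x n).2 hx, ?_, ?_⟩
  · linarith
  · linarith

/-- the position of an end point which moves -/
theorem end_at {x u : ℝ} {D : Set ℝ} (hper : ∀ θ : ℝ, ∀ n : ℤ, θ + 6 * n ∈ D ↔ θ ∈ D) (hx : x ∈ D)
    (h : m6 (⌈x - 1 / 2 - u⌉ - 1) ≠ m6 ⌊x - 1 / 2 - u⌋) {j : Fin 6}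
    (hj : j = m6 ⌊x - 1 / 2 - u⌋) : u + (j.val : ℝ) + 1 / 2 ∈ D := by
  set y := x - 1 / 2 - u with hy
  have e4 := Int.floor_le_ceil y
  have e5 := Int.ceil_le_floor_add_one y
  have h1 : ⌈y⌉ = ⌊y⌋ := by
    by_contra h6
    have h7 : ⌈y⌉ = ⌊y⌋ + 1 := by omega
    apply h
    rw [h7]
    congr 1
    ring
  have h2 := Int.le_ceil y
  have h3 := Int.floor_le y
  rw [h1] at h2
  have h4 : y = ⌊y⌋ := le_antisymm h2 h3
  have hk : ∃ n : ℤ, (j.val : ℤ) = ⌊y⌋ + 6 * n := by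
    have a2 := m6_val ⌊y⌋
    rw [hj]
    exact ⟨((m6 ⌊y⌋).val - ⌊y⌋) / 6, by omega⟩
  obtain ⟨n, hn⟩ := hk
  have hn' : (j.val : ℝ) = ⌊y⌋ + 6 * n := by exact_mod_cast hn
  have e : u + (j.val : ℝ) + 1 / 2 = x + 6 * n := by linarith
  rw [e]
  exact (hper x n).2 hx

theorem mustP (C : C6 U T z) {u : ℝ} {g : Fin 24} {c : Fin 6} (h : (HR T z u c).1 = (HL T z u c).1)
    (hg : ang g = 2 * ((HL T z u c).1 + 1 : Fin 6).val) : DD T z u 0 g c := by
  have hgj := ang_even hg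
  rw [dd_sec (by rw [hgj]; exact ((HL T z u c).1 + 1 : Fin 6).isLt), hgj]
  exact end_in (fun θ n => dr_per_int T z c θ n) (C.hull c).left h rfl

theorem mustQ (C : C6 U T z) {u : ℝ} {g : Fin 24} {c j : Fin 6}
    (hj : (HL T z u c).1 + (HL T z u c).2.castLE (by norm_num) = j)
    (h : (HR T z u c).1 + (HR T z u c).2.castLE (by norm_num) = j)
    (hg : ang g = 2 * (j + 1 : Fin 6).val) : DD T z u 0 g c := by
  have hgj := ang_even hg
  obtain ⟨f1, f2⟩ := C.fl_le c u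
  obtain ⟨g1, g2⟩ := C.cl_le c u
  have k1 : (HR T z u c).1 + (HR T z u c).2.castLE (by norm_num) =
    m6 (⌈(hl (Dr T z c)).2 - 1 / 2 - u⌉ - 1) := enc_snd g1 g2
  have k2 : (HL T z u c).1 + (HL T z u c).2.castLE (by norm_num) =
    m6 ⌊(hl (Dr T z c)).2 - 1 / 2 - u⌋ := enc_snd f1 f2
  rw [dd_sec (by rw [hgj]; exact (j + 1 : Fin 6).isLt), hgj]
  refine end_in (fun θ n => dr_per_int T z c θ n) (C.hull c).right ?_ ?_
  · rw [← k1, ← k2, h, hj]
  · rw [← hj, k2]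

/-- side of the direction `2 j + 1` with respect to the neighbour `d` -/
def insE (j d : Fin 6) : Bool :=
  let r := (2 * j.val + 1 + 12 - 2 * d.val) % 12
  decide (r ≤ 2) || decide (10 ≤ r)

/-- the direction `2 j + 1` is orthogonal to the neighbour `d` -/
def ortE (j d : Fin 6) : Bool :=
  let r := (2 * j.val + 1 + 12 - 2 * d.val) % 12
  decide (r = 3) || decide (r = 9)

/-- **R1** for a limit direction exactly on a tangent ray -/
theorem dd_mv (h : Irr U T) {u : ℝ} {j d : Fin 6} {g : Fin 24} {c : Fin 6}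
    (hθ : u + (j.val : ℝ) + 1 / 2 ∈ Dr T z c) (ho : ortE j d = false) (hs : insE j d ≠ ins g (d + 3)) :
    ∃ c', c' ≠ c ∧ DD T z u (stp d) g c' := by
  suffices hh : ∃ c', c' ≠ c ∧ Dg T (germ (Pt z u (stp d)) u g) c' by
    obtain ⟨c', h1, h2⟩ := hh
    exact ⟨c', h1, dd_of_dg h2⟩
  have e1 : Pt z u (stp d) = z + rd (u + d.val) := by rw [Pt_pt, pt_sub]
  have e2 : Pt z u (stp d) + rd (u + (d + 3 : Fin 6).val) = z := by
    have := Pt_opp z u 0 d
    rwa [zero_add, Pt_zero] at this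
  have hco : co (u + (j.val : ℝ) + 1 / 2 - (u + d.val)) =
      co ((((2 * j.val + 1 + 12 - 2 * d.val) % 12 : ℕ) : ℝ) / 2) := by
    rw [← co_zero_r (a := 2 * j.val + 1) (d := d.val) (by have := d.isLt; omega)]
    congr 1; push_cast; ring
  have hrj : ∀ j d : Fin 6, ortE j d = false → insE j d = false →
      4 ≤ (2 * j.val + 1 + 12 - 2 * d.val) % 12 ∧ (2 * j.val + 1 + 12 - 2 * d.val) % 12 ≤ 8 := by decide
  have hin : insE j d = true → InF' (fdir z (u + (j.val : ℝ) + 1 / 2)) (z + rd (u + d.val)) := by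
    intro hi
    apply fdir_in
    rw [hco]
    unfold insE at hi
    simp only [Bool.or_eq_true, decide_eq_true_eq] at hi
    rcases hi with h1 | h1
    · exact co_pos_r (Or.inl h1)
    · exact co_pos_r (Or.inr ⟨h1, Nat.mod_lt _ (by norm_num)⟩)
  have hout : insE j d = false → OutF' (fdir z (u + (j.val : ℝ) + 1 / 2)) (z + rd (u + d.val)) := by
    intro hi
    apply fdir_out
    rw [hco]
    exact co_neg_r (hrj j d ho hi)
  refine h.dg_cross (germ_cont _ u g) (fdir_le z _) ?_ (ff_dir hθ)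
  rw [germ_zero]
  cases hE : insE j d
  · cases hg : ins g (d + 3)
    · exact absurd (hE.trans hg.symm) hs
    · refine Or.inr ⟨?_, ?_⟩
      · have := ing (Pt z u (stp d)) u hg
        rwa [e2] at this
      · rw [e1]; exact hout hE
  · cases hg : ins g (d + 3)
    · refine Or.inl ⟨?_, ?_⟩
      · have := outg (Pt z u (stp d)) u hg
        rwa [e2] at this
      · rw [e1]; exact hin hE
    · exact absurd (hE.trans hg.symm) hs

/-! ### the structure -/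

/-- all lattice facts at one time; `s`, `t` are the states before and after -/
structure Sys (s t : St6) (D : ℤ × ℤ → Fin 24 → Fin 6 → Prop) : Prop where
  ne : ∀ p g, ∃ c, D p g c
  r1 : ∀ p d g g' c, (ins g d ≠ ins g' (d + 3) ∨ g = g') → D (p + stp d) g' c → ∃ c', c' ≠ c ∧ D p g c'
  ctI : ∀ k g c, (c = (s.1 k).1 ∨ c = (t.1 k).1) → ins g (k + 3) = false → ¬ D (stp k) g c
  ctO : ∀ k g c, (c = (s.1 k).2 ∨ c = (t.1 k).2) → ins g (k + 3) = true → ¬ D (stp k) g c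
  arcR : ∀ k d g c, d ≠ k + 3 → (c = (t.1 k).1 ∨ c = (t.1 k).2) → insA true k d ≠ ins g (d + 3) →
    ¬ D (stp k + stp d) g c
  arcL : ∀ k d g c, d ≠ k + 3 → (c = (s.1 k).1 ∨ c = (s.1 k).2) → insA false k d ≠ ins g (d + 3) →
    ¬ D (stp k + stp d) g c
  tanR : ∀ k g c, (c = (t.1 k).1 ∨ c = (t.1 k).2) → tanc true k g = true → ¬ D 0 g c
  tanL : ∀ k g c, (c = (s.1 k).1 ∨ c = (s.1 k).2) → tanc false k g = true → ¬ D 0 g c
  hullS : ∀ g j c, ang g = 2 * j.val → D 0 g c → secIn (j - 1) (s.2 c) ∧ secIn (j - 1) (t.2 c)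
  hullT : ∀ g j c, ang g = 2 * j.val + 1 → D 0 g c → secIn j (s.2 c) ∧ secIn (j - 1) (t.2 c)
  mustP : ∀ g c, (t.2 c).1 = (s.2 c).1 → ang g = 2 * ((s.2 c).1 + 1 : Fin 6).val → D 0 g c
  mustQ : ∀ g c j, (s.2 c).1 + (s.2 c).2.castLE (by norm_num) = j →
    (t.2 c).1 + (t.2 c).2.castLE (by norm_num) = j → ang g = 2 * (j + 1 : Fin 6).val → D 0 g c
  mvP : ∀ c d g, (t.2 c).1 ≠ (s.2 c).1 → ortE (s.2 c).1 d = false →
    insE (s.2 c).1 d ≠ ins g (d + 3) → ∃ c', c' ≠ c ∧ D (stp d) g c'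
  mvQ : ∀ c d g j, (s.2 c).1 + (s.2 c).2.castLE (by norm_num) = j →
    (t.2 c).1 + (t.2 c).2.castLE (by norm_num) ≠ j → ortE j d = false →
    insE j d ≠ ins g (d + 3) → ∃ c', c' ≠ c ∧ D (stp d) g c'
  stepP : ∀ c, (t.2 c).1 = (s.2 c).1 ∨ (t.2 c).1 + 1 = (s.2 c).1
  stepQ : ∀ c, (t.2 c).1 + (t.2 c).2.castLE (by norm_num) = (s.2 c).1 + (s.2 c).2.castLE (by norm_num) ∨
    (t.2 c).1 + (t.2 c).2.castLE (by norm_num) + 1 = (s.2 c).1 + (s.2 c).2.castLE (by norm_num)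
  statL : Stat s
  statR : Stat t
  swap : ∀ k, (s.1 k).1 ≠ (t.1 k).2 ∧ (s.1 k).2 ≠ (t.1 k).1

end Vale.Agent.P032.H357

namespace Vale.Agent.P032.H892

open Vale.Agent.P032.Six Vale.Agent.P032.Words Vale.Agent.P032.S5.H767 Vale.Agent.P032.H357

variable {U : Fin 6 → Set ℂ} {T : ℂ → Set (Fin 6)} {z : ℂ}

/-- **The lattice facts** at every time -/
theorem C6.sys (C : C6 U T z) (u : ℝ) : Sys (SL U T z u) (SR U T z u) (DD T z u) where
  ne p g := dd_ne C.irr u p g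
  r1 _ _ _ _ _ h hd := dd_r1 C.irr h hd
  ctI k g c h hg := dd_out C.irr (by
    rcases h with h | h <;> rw [h]
    · exact (C.sided_L _).1
    · exact (C.sided_R _).1) hg
  ctO k g c h hg := dd_inn C.irr (by
    rcases h with h | h <;> rw [h]
    · exact (C.sided_L _).2
    · exact (C.sided_R _).2) hg
  arcR k d g c hk h hs := dd_arc (s := true) C.irr hk (C.hc_R _ h) hs
  arcL k d g c hk h hs := dd_arc (s := false) C.irr hk (C.hc_L _ h) hs
  tanR k g c h hs := dd_tan (s := true) C.irr (C.hc_R _ h) hs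
  tanL k g c h hs := dd_tan (s := false) C.irr (C.hc_L _ h) hs
  hullS g j c hg h := H357.hullS C hg h
  hullT g j c hg h := H357.hullT C hg h
  mustP g c h hg := H357.mustP C h hg
  mustQ g c j hj h hg := H357.mustQ C hj h hg
  mvP c d g h ho hs := dd_mv C.irr (end_at (fun θ n => dr_per_int T z c θ n) (C.hull c).left h rfl) ho hs
  mvQ c d g j hj h ho hs := by
    obtain ⟨f1, f2⟩ := C.fl_le c u
    obtain ⟨g1, g2⟩ := C.cl_le c u
    have k1 : (HR T z u c).1 + (HR T z u c).2.castLE (by norm_num) =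
      m6 (⌈(hl (Dr T z c)).2 - 1 / 2 - u⌉ - 1) := enc_snd g1 g2
    have k2 : (HL T z u c).1 + (HL T z u c).2.castLE (by norm_num) =
      m6 ⌊(hl (Dr T z c)).2 - 1 / 2 - u⌋ := enc_snd f1 f2
    refine dd_mv C.irr (end_at (fun θ n => dr_per_int T z c θ n) (C.hull c).right ?_ ?_) ho hs
    · intro hh
      apply h
      show (HR T z u c).1 + (HR T z u c).2.castLE (by norm_num) = j
      rw [k1, hh, ← k2]; exact hj
    · rw [← k2]; exact hj.symm
  stepP c := step_fst u c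
  stepQ c := C.step_snd u c
  statL := C.stat_L u
  statR := C.stat_R u
  swap k := C.no_swap _

end Vale.Agent.P032.H892
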